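import Crest.Agent.SnakyLib.MemoSound

/-!
# Memoised certificate checker: segmented certificates

A large certificate is cut into segments (consecutive blocks of nodes, children first). Each
segment has its own table and its own kernel evaluation; the values of the nodes that later
segments refer to ("exports") are listed as literals and checked against the computed values
(`expAll`). Later segments read them through `ext` (`extCons`).

* `resx ext tab F a`: as `Memo.res`, with a third kind of child word (tag 2: external value).
* `nodeVal_of_expAll`: the listed export values of a segment are sound.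
* `nodeVal_extCons`: extending the table of external values by the exports of a segment.
* `nodeM_of_checkx`: the final test.
-/

set_option autoImplicit false
set_option exponentiation.threshold 2000

namespace Crest.Agent.SnakyLib.Memo

open Crest.CombinatoricsR.PolyominoGame Crest.Agent.SnakyLib

/-- Value of a child word `w`: bits 0-1 are the tag (0: node reference, 1: WIN leaf, 2 or 3:
external value), the payload is `w >>> 2`. -/
def cvalx (ext ih : Nat → Nat) (w : Nat) : Nat :=
  Nat.rec (motive := fun _ => Nat)
    (Nat.rec (motive := fun _ => Nat) (nat_lit 0) (fun n _ => ih (Nat.succ n))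
      (Nat.shiftRight w (nat_lit 2)))
    (fun t _ =>
      Nat.rec (motive := fun _ => Nat)
        (Nat.rec (motive := fun _ => Nat) (wval (nat_lit 0)) (fun n _ => wval (Nat.succ n))
          (Nat.shiftRight w (nat_lit 2)))
        (fun _ _ =>
          Nat.rec (motive := fun _ => Nat) (ext (nat_lit 0)) (fun n _ => ext (Nat.succ n))
            (Nat.shiftRight w (nat_lit 2)))
        t)
    (Nat.land w (nat_lit 3))

/-- `Memo.res` with external values. Same record layout. -/
def resx (ext tab : Nat → Nat) (F : Nat) : Nat → Nat :=
  Nat.rec (motive := fun _ => Nat → Nat) (fun _ => nat_lit 0)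
    (fun F ih a =>
      Nat.rec (motive := fun _ => Nat)
        (mstep
          (Nat.rec (motive := fun _ => Nat) (nat_lit 0)
            (fun j acc => Nat.lor acc
              (cvalx ext ih
                (Nat.land
                  (Nat.shiftRight (tab a) (Nat.mul (nat_lit 32) (Nat.succ j)))
                  (nat_lit 0xFFFFFFFF))))
            (Nat.land (Nat.shiftRight (tab a) (nat_lit 5)) (nat_lit 255)))
          (Nat.land (Nat.shiftRight (tab a) (nat_lit 13)) (nat_lit 255)))
        (fun _ _ => ih a)
        (Nat.sub (Nat.succ F) (Nat.land (tab a) (nat_lit 31))))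
    F

/-- Difference (XOR) between the listed value of export `i` and the computed value of the node
at address `eaddr i` (address `0`: no node, value `0`). -/
def expDiff (ext tab evals eaddr : Nat → Nat) (F i : Nat) : Nat :=
  Nat.xor (evals i)
    (Nat.rec (motive := fun _ => Nat) (nat_lit 0) (fun n _ => resx ext tab F (Nat.succ n))
      (eaddr i))

/-- OR of the differences of the exports `256 * g .. 256 * g + 255`. -/
def expGrp (ext tab evals eaddr : Nat → Nat) (F g : Nat) : Nat :=
  Nat.rec (motive := fun _ => Nat) (nat_lit 0)
    (fun j acc => Nat.lor acc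
      (expDiff ext tab evals eaddr F (Nat.add (Nat.mul (nat_lit 256) g) j)))
    (nat_lit 256)

/-- OR of the differences of the exports `0 .. 256 * ng - 1`; `0` iff all listed values are the
computed ones. -/
def expAll (ext tab evals eaddr : Nat → Nat) (F ng : Nat) : Nat :=
  Nat.rec (motive := fun _ => Nat) (nat_lit 0)
    (fun g acc => Nat.lor acc (expGrp ext tab evals eaddr F g)) ng

/-- The external values after a segment: indices `lo .. lo + n - 1` are the exports of the
segment, smaller indices are older external values. -/
def extCons (prev evals : Nat → Nat) (lo n : Nat) (i : Nat) : Nat :=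
  Nat.rec (motive := fun _ => Nat) (prev i)
    (fun _ _ =>
      Nat.rec (motive := fun _ => Nat) (nat_lit 0) (fun _ _ => evals (Nat.sub i lo))
        (Nat.sub (Nat.add lo n) i))
    (Nat.sub (Nat.succ i) lo)

/-- The final test with external values. -/
def checkx (ext tab : Nat → Nat) (F a Z N d : Nat) : Bool :=
  Nat.beq (resx ext tab F a) (packNode Z N d) &&
    Nat.ble (Nat.succ Z) (Nat.pow (nat_lit 2) (nat_lit 256)) &&
    Nat.ble (Nat.succ N) (Nat.pow (nat_lit 2) (nat_lit 256))

/-! ### Soundness -/

theorem nodeVal_zero : NodeVal 0 := Or.inl rfl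

theorem sem_cvalx (ext ih : ℕ → ℕ) (hext : ∀ i, NodeVal (ext i)) (h : ∀ a, NodeVal (ih a))
    (w : ℕ) : Sem (cvalx ext ih w) := by
  unfold cvalx
  generalize Nat.land w 3 = t
  generalize Nat.shiftRight w 2 = p
  cases t with
  | zero =>
    cases p with
    | zero => exact sem_zero
    | succ n => exact sem_of_nodeVal (h _)
  | succ t =>
    cases t with
    | zero =>
      cases p with
      | zero => exact sem_wval 0
      | succ n => exact sem_wval _
    | succ t =>
      cases p with
      | zero => exact sem_of_nodeVal (hext _)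
      | succ n => exact sem_of_nodeVal (hext _)

theorem nodeVal_resx (ext tab : ℕ → ℕ) (hext : ∀ i, NodeVal (ext i)) :
    ∀ F a : ℕ, NodeVal (resx ext tab F a)
  | 0, _ => Or.inl rfl
  | F + 1, a => by
    have ih := nodeVal_resx ext tab hext F
    refine rec_cases (P := NodeVal) _ _ _
      (nodeVal_mstep (sem_fold _ (fun j => sem_cvalx ext _ hext ih _) _) ?_) (ih a)
    exact Nat.lt_succ_of_le Nat.and_le_right

theorem expDiff_eq_zero {ext tab evals eaddr : ℕ → ℕ} {F i : ℕ} (hext : ∀ i, NodeVal (ext i))
    (h : expDiff ext tab evals eaddr F i = 0) : NodeVal (evals i) := by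
  unfold expDiff at h
  have h' := Nat.xor_eq_zero_iff.mp h
  rw [h']
  generalize eaddr i = a
  cases a with
  | zero => exact nodeVal_zero
  | succ n => exact nodeVal_resx ext tab hext F _

theorem lor_rec_eq_zero (f : ℕ → ℕ) :
    ∀ k : ℕ, Nat.rec (motive := fun _ => ℕ) 0 (fun j acc => Nat.lor acc (f j)) k = 0 →
      ∀ j, j < k → f j = 0 := by
  intro k
  induction k with
  | zero => intro _ j hj; exact absurd hj (Nat.not_lt_zero j)
  | succ k ih =>
    intro h j hj
    have h' : Nat.rec (motive := fun _ => ℕ) 0 (fun j acc => Nat.lor acc (f j)) k ||| f k = 0 := h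
    rw [Nat.or_eq_zero_iff] at h'
    rcases Nat.lt_succ_iff_lt_or_eq.mp hj with hj | hj
    · exact ih h'.1 j hj
    · rw [hj]; exact h'.2

theorem expGrp_zero {ext tab evals eaddr : ℕ → ℕ} {F g : ℕ}
    (h : expGrp ext tab evals eaddr F g = 0) :
    ∀ j, j < nat_lit 256 →
      expDiff ext tab evals eaddr F (Nat.add (Nat.mul (nat_lit 256) g) j) = 0 := by
  have key : ∀ K : ℕ,
      Nat.rec (motive := fun _ => ℕ) (nat_lit 0)
        (fun j acc => Nat.lor acc
          (expDiff ext tab evals eaddr F (Nat.add (Nat.mul (nat_lit 256) g) j))) K = 0 →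
      ∀ j, j < K →
        expDiff ext tab evals eaddr F (Nat.add (Nat.mul (nat_lit 256) g) j) = 0 :=
    fun K => lor_rec_eq_zero _ K
  exact key (nat_lit 256) h

/-- The listed export values of a segment are values of nodes. -/
theorem nodeVal_of_expAll (ext tab evals eaddr : ℕ → ℕ) (F ng : ℕ)
    (hext : ∀ i, NodeVal (ext i)) (h : expAll ext tab evals eaddr F ng = 0) :
    ∀ i, i < 256 * ng → NodeVal (evals i) := by
  intro i hi
  have hg : i / 256 < ng := by omega
  have h1 : expGrp ext tab evals eaddr F (i / 256) = 0 :=
    lor_rec_eq_zero (fun g => expGrp ext tab evals eaddr F g) ng h (i / 256) hg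
  have hlt : i % 256 < nat_lit 256 := Nat.mod_lt _ (by norm_num)
  have h2 := expGrp_zero h1 (i % 256) hlt
  have e : Nat.add (Nat.mul (nat_lit 256) (i / 256)) (i % 256) = i := Nat.div_add_mod i 256
  rw [e] at h2
  exact expDiff_eq_zero hext h2

theorem nodeVal_extCons (prev evals : ℕ → ℕ) (lo n : ℕ) (hp : ∀ i, NodeVal (prev i))
    (he : ∀ i, i < n → NodeVal (evals i)) : ∀ i, NodeVal (extCons prev evals lo n i) := by
  intro i
  unfold extCons
  generalize h1 : Nat.sub (Nat.succ i) lo = t1
  generalize h2 : Nat.sub (Nat.add lo n) i = t2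
  have h1' : i + 1 - lo = t1 := h1
  have h2' : lo + n - i = t2 := h2
  cases t1 with
  | zero => exact hp i
  | succ t1 =>
    cases t2 with
    | zero => exact nodeVal_zero
    | succ t2 =>
      refine he _ ?_
      show i - lo < n
      omega

/-- Soundness of the final test of a segmented certificate. -/
theorem nodeM_of_checkx (ext tab : ℕ → ℕ) (hext : ∀ i, NodeVal (ext i)) (F a Z N d : ℕ)
    (h : checkx ext tab F a Z N d = true) : NodeM Z N d := by
  unfold checkx at h
  rw [Bool.and_eq_true, Bool.and_eq_true] at h
  obtain ⟨⟨h1, h2⟩, h3⟩ := h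
  have hZ : Z < 2 ^ 256 := Nat.le_of_ble_eq_true h2
  have hN : N < 2 ^ 256 := Nat.le_of_ble_eq_true h3
  have hv := nodeVal_resx ext tab hext F a
  rw [Nat.eq_of_beq_eq_true h1, packNode_eq] at hv
  rcases hv with h0 | ⟨Z', N', D', hZ', hN', heq, hnode⟩
  · exfalso
    have := congrArg Af h0
    rw [Af_pack hZ compl_lt] at this
    have h00 : Af 0 = 0 := by unfold Af; simp
    rw [h00] at this
    have : 2 ^ 256 ≤ 2 ^ 257 - 1 - Z := by
      have e : (2 : ℕ) ^ 257 = 2 ^ 256 + 2 ^ 256 := by rw [pow_succ]; ring
      omega
    have := Nat.two_pow_pos 256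
    omega
  · have e1 : Z = Z' := by
      have := congrArg Zf heq
      rwa [Zf_pack hZ, Zf_pack hZ'] at this
    subst e1
    have e2 : N = N' := by
      have := congrArg Nf heq
      rwa [Nf_pack hZ compl_lt hN, Nf_pack hZ compl_lt hN'] at this
    subst e2
    have e3 : 2 ^ d - 1 = D' := by
      have := congrArg Df heq
      rwa [Df_pack hZ compl_lt hN, Df_pack hZ compl_lt hN] at this
    subst e3
    exact hnode d (Nat.sub_lt (Nat.two_pow_pos d) Nat.one_pos)

end Crest.Agent.SnakyLib.Memo
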